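import Mathlib

/-!
# P344: a lower bound for linear circuits computing the discrete Fourier transform

Every linear circuit (unrestricted coefficients) computing `F_n x` has at least
`3 n - n / p - 3` gates, `p` the least prime factor of `n`; in particular at least
`(5/2) n - 3` gates, and at least `3 n - 4` gates when `n` is prime.
-/

namespace Vale.Agent.Results.P344.LinearLower

open Finset

/-- A gate refers to previously available values by their position in the list of values:
`add i j` computes `u + v`, `sub i j` computes `u - v`, `scale c i` computes `c u`. -/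
inductive Gate where
  | add (i j : ℕ) : Gate
  | sub (i j : ℕ) : Gate
  | scale (c : ℂ) (i : ℕ) : Gate

/-- The value of a gate, given the list of the values available before it (a position beyond the
list refers to the constant `0`, which is available anyway). -/
def Gate.value {M : Type} [AddCommGroup M] [Module ℂ M] (vals : List M) : Gate → M
  | .add i j => vals.getD i 0 + vals.getD j 0
  | .sub i j => vals.getD i 0 - vals.getD j 0
  | .scale c i => c • vals.getD i 0

/-- All values available after running a list of gates, starting from the list `vals`. -/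
def run {M : Type} [AddCommGroup M] [Module ℂ M] : List M → List Gate → List M
  | vals, [] => vals
  | vals, g :: gs => run (vals ++ [g.value vals]) gs

/-- `ζ_n = exp(2πi/n)`. -/
noncomputable def zeta (n : ℕ) : ℂ := Complex.exp (2 * Real.pi * Complex.I / n)

/-- The circuit `C`, run on the inputs `x_0,…,x_{n-1}` and the constant `0`, has designated
computed values equal to the coordinates of `F_n x`, for every `x ∈ ℂ^n`. -/
def Computes (n : ℕ) (C : List Gate) : Prop :=
  ∃ out : Fin n → ℕ, ∀ (x : Fin n → ℂ) (k : Fin n),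
    (run (List.ofFn x ++ [0]) C).getD (out k) 0 = ∑ j : Fin n, zeta n ^ ((k : ℕ) * (j : ℕ)) * x j

/-- `L(n)`: the least number of gates of a linear circuit computing `F_n x`. -/
noncomputable def L (n : ℕ) : ℕ∞ := ⨅ (C : List Gate) (_ : Computes n C), (C.length : ℕ∞)

/-! ### Chains of vectors -/

/-- a step `a u + b w` -/
structure Step (n : ℕ) where
  a : ℂ
  b : ℂ
  u : Fin n → ℂ
  w : Fin n → ℂ

variable {n : ℕ}

/-- value of a step -/
def Step.val (g : Step n) : Fin n → ℂ := g.a • g.u + g.b • g.w

/-- unit vector -/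
def e (i : Fin n) : Fin n → ℂ := Pi.single i 1

/-- directly usable vectors -/
def Src (J : Finset (Fin n)) (l : List (Step n)) (y : Fin n → ℂ) : Prop :=
  (∃ i ∈ J, y = e i) ∨ ∃ h ∈ l, y = h.val

/-- newest step first -/
def Chain (J : Finset (Fin n)) : List (Step n) → Prop
  | [] => True
  | g :: l => Src J l g.u ∧ Src J l g.w ∧ Chain J l

/-- scalar multiples of usable vectors -/
def Avail (J : Finset (Fin n)) (l : List (Step n)) (v : Fin n → ℂ) : Prop :=
  ∃ (c : ℂ) (y : Fin n → ℂ), Src J l y ∧ v = c • y

/-- the step reads a multiple of `e i` -/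
def Reads (i : Fin n) (g : Step n) : Prop := (∃ c : ℂ, g.u = c • e i) ∨ (∃ c : ℂ, g.w = c • e i)

open Classical in
/-- number of steps reading a multiple of `e i` -/
noncomputable def cnt (i : Fin n) (l : List (Step n)) : ℕ := (l.filter (fun g => Reads i g)).length

/-- set coordinate `i` to zero -/
def proj (i : Fin n) (v : Fin n → ℂ) : Fin n → ℂ := fun j => if j = i then 0 else v j

lemma proj_add (i : Fin n) (v w : Fin n → ℂ) : proj i (v + w) = proj i v + proj i w := by
  ext j; simp only [proj, Pi.add_apply]; split_ifs <;> simp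

lemma proj_smul (i : Fin n) (c : ℂ) (v : Fin n → ℂ) : proj i (c • v) = c • proj i v := by
  ext j; simp only [proj, Pi.smul_apply]; split_ifs <;> simp

lemma proj_e_self (i : Fin n) : proj i (e i) = 0 := by
  ext j; by_cases h : j = i <;> simp [proj, e, h]

lemma proj_e_ne {i j : Fin n} (h : j ≠ i) : proj i (e j) = e j := by
  ext k; by_cases hk : k = i
  · subst hk; simp [proj, e, h.symm]
  · simp [proj, hk]

lemma Src.cons {J : Finset (Fin n)} {l : List (Step n)} {y : Fin n → ℂ} (g : Step n)
    (h : Src J l y) : Src J (g :: l) y := by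
  rcases h with h | ⟨k, hk, rfl⟩
  · exact Or.inl h
  · exact Or.inr ⟨k, List.mem_cons_of_mem _ hk, rfl⟩

lemma Avail.cons {J : Finset (Fin n)} {l : List (Step n)} {y : Fin n → ℂ} (g : Step n)
    (h : Avail J l y) : Avail J (g :: l) y := by
  obtain ⟨c, z, hz, rfl⟩ := h
  exact ⟨c, z, hz.cons g, rfl⟩

lemma Avail.smul {J : Finset (Fin n)} {l : List (Step n)} {y : Fin n → ℂ} (c : ℂ)
    (h : Avail J l y) : Avail J l (c • y) := by
  obtain ⟨c', z, hz, rfl⟩ := h
  exact ⟨c * c', z, hz, by rw [smul_smul]⟩

lemma avail_zero {J : Finset (Fin n)} (hJ : J.Nonempty) (l : List (Step n)) :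
    Avail J l 0 := by
  obtain ⟨i, hi⟩ := hJ
  exact ⟨0, e i, Or.inl ⟨i, hi, rfl⟩, by simp⟩

/-- elimination of a variable -/
lemma eliminate {J : Finset (Fin n)} {i : Fin n} (hJ : (J.erase i).Nonempty) :
    ∀ l : List (Step n), Chain J l → ∃ l' : List (Step n), Chain (J.erase i) l' ∧
      (∀ v, Src J l v → Avail (J.erase i) l' (proj i v)) ∧ l'.length + cnt i l ≤ l.length := by
  classical
  intro l
  induction l with
  | nil =>
    intro _
    refine ⟨[], trivial, ?_, by simp [cnt]⟩
    intro v hv
    rcases hv with ⟨j, hj, rfl⟩ | ⟨h, hh, _⟩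
    · by_cases hji : j = i
      · subst hji; rw [proj_e_self]; exact avail_zero hJ _
      · rw [proj_e_ne hji]
        exact ⟨1, e j, Or.inl ⟨j, Finset.mem_erase.mpr ⟨hji, hj⟩, rfl⟩, by simp⟩
    · simp at hh
  | cons g l ih =>
    rintro ⟨hu, hw, hl⟩
    obtain ⟨l', hl', hav, hlen⟩ := ih hl
    have hval : proj i g.val = g.a • proj i g.u + g.b • proj i g.w := by
      unfold Step.val
      rw [proj_add, proj_smul, proj_smul]
    by_cases hr : Reads i g
    · -- the step becomes redundant
      have hgv : Avail (J.erase i) l' (proj i g.val) := by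
        rw [hval]
        rcases hr with ⟨c, hc⟩ | ⟨c, hc⟩
        · rw [hc, proj_smul, proj_e_self]
          simpa using (hav _ hw).smul g.b
        · rw [hc, proj_smul, proj_e_self]
          simpa using (hav _ hu).smul g.a
      refine ⟨l', hl', ?_, ?_⟩
      · intro v hv
        rcases hv with hv | ⟨h, hh, rfl⟩
        · exact hav v (Or.inl hv)
        · rcases List.mem_cons.mp hh with rfl | hh
          · exact hgv
          · exact hav _ (Or.inr ⟨h, hh, rfl⟩)
      · have : cnt i (g :: l) = cnt i l + 1 := by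
          unfold cnt
          rw [List.filter_cons_of_pos (by simpa using hr), List.length_cons]
        rw [this, List.length_cons]
        omega
    · obtain ⟨c₁, y₁, hy₁, e₁⟩ := hav _ hu
      obtain ⟨c₂, y₂, hy₂, e₂⟩ := hav _ hw
      let g' : Step n := ⟨g.a * c₁, g.b * c₂, y₁, y₂⟩
      have hg' : proj i g.val = g'.val := by
        rw [hval, e₁, e₂]
        simp only [g', Step.val, smul_smul]
      refine ⟨g' :: l', ⟨hy₁, hy₂, hl'⟩, ?_, ?_⟩
      · intro v hv
        rcases hv with hv | ⟨h, hh, rfl⟩
        · exact (hav v (Or.inl hv)).cons g'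
        · rcases List.mem_cons.mp hh with rfl | hh
          · rw [hg']
            exact ⟨1, g'.val, Or.inr ⟨g', List.mem_cons_self, rfl⟩, by simp⟩
          · exact (hav _ (Or.inr ⟨h, hh, rfl⟩)).cons g'
      · have : cnt i (g :: l) = cnt i l := by
          unfold cnt
          rw [List.filter_cons_of_neg (by simpa using hr)]
        rw [this, List.length_cons, List.length_cons]
        omega

/-- structure of the values when `e i` and `e j` are only read by the oldest step -/
lemma values_structure {J : Finset (Fin n)} {i j : Fin n} {g : Step n}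
    (hgu : g.u = e i) (hgw : g.w = e j) :
    ∀ l : List (Step n), Chain J (l ++ [g]) → cnt i l = 0 → cnt j l = 0 →
      ∀ v, Src J (l ++ [g]) v →
        (∃ c : ℂ, v = c • e i) ∨ (∃ c : ℂ, v = c • e j) ∨
        (i ≠ j ∧ ∃ c : ℂ, v i = c * g.a ∧ v j = c * g.b) ∨ (i = j ∧ v i = 0) := by
  classical
  intro l
  induction l with
  | nil =>
    intro _ _ _ v hv
    rcases hv with ⟨k, _, rfl⟩ | ⟨h, hh, rfl⟩
    · by_cases hki : k = i
      · subst hki; exact Or.inl ⟨1, by simp⟩
      · by_cases hkj : k = j
        · subst hkj; exact Or.inr (Or.inl ⟨1, by simp⟩)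
        · by_cases hij : i = j
          · exact Or.inr (Or.inr (Or.inr ⟨hij, by simp [e, Ne.symm hki]⟩))
          · refine Or.inr (Or.inr (Or.inl ⟨hij, 0, ?_, ?_⟩))
            · simp [e, Ne.symm hki]
            · simp [e, Ne.symm hkj]
    · simp only [List.nil_append, List.mem_singleton] at hh
      subst hh
      by_cases hij : i = j
      · subst hij
        refine Or.inl ⟨h.a + h.b, ?_⟩
        unfold Step.val
        rw [hgu, hgw, add_smul]
      · refine Or.inr (Or.inr (Or.inl ⟨hij, 1, ?_, ?_⟩))
        · unfold Step.val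
          rw [hgu, hgw]
          simp [e, hij]
        · unfold Step.val
          rw [hgu, hgw]
          simp [e, Ne.symm hij]
  | cons g₁ l ih =>
    rintro ⟨hu, hw, hl⟩ hci hcj v hv
    have hnr : ¬ Reads i g₁ := by
      intro hr
      unfold cnt at hci
      rw [List.filter_cons_of_pos (by simpa using hr)] at hci
      simp at hci
    have hnr' : ¬ Reads j g₁ := by
      intro hr
      unfold cnt at hcj
      rw [List.filter_cons_of_pos (by simpa using hr)] at hcj
      simp at hcj
    have hci' : cnt i l = 0 := by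
      unfold cnt at hci ⊢
      rw [List.filter_cons_of_neg (by simpa using hnr)] at hci
      exact hci
    have hcj' : cnt j l = 0 := by
      unfold cnt at hcj ⊢
      rw [List.filter_cons_of_neg (by simpa using hnr')] at hcj
      exact hcj
    have IH := ih hl hci' hcj'
    rcases hv with hv | ⟨h, hh, rfl⟩
    · exact IH v (Or.inl hv)
    · rcases List.mem_cons.mp hh with rfl | hh
      · have h1 := IH _ hu
        have h2 := IH _ hw
        have h1' : (i ≠ j ∧ ∃ c : ℂ, h.u i = c * g.a ∧ h.u j = c * g.b) ∨
            (i = j ∧ h.u i = 0) := by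
          rcases h1 with h1 | h1 | h1
          · exact absurd (Or.inl h1) hnr
          · exact absurd (Or.inl h1) hnr'
          · exact h1
        have h2' : (i ≠ j ∧ ∃ c : ℂ, h.w i = c * g.a ∧ h.w j = c * g.b) ∨
            (i = j ∧ h.w i = 0) := by
          rcases h2 with h2 | h2 | h2
          · exact absurd (Or.inr h2) hnr
          · exact absurd (Or.inr h2) hnr'
          · exact h2
        rcases h1' with ⟨hij, c₁, hc₁, hd₁⟩ | ⟨hij, hc₁⟩
        · rcases h2' with ⟨_, c₂, hc₂, hd₂⟩ | ⟨hij', _⟩
          · refine Or.inr (Or.inr (Or.inl ⟨hij, h.a * c₁ + h.b * c₂, ?_, ?_⟩))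
            · simp only [Step.val, Pi.add_apply, Pi.smul_apply, smul_eq_mul, hc₁, hc₂]; ring
            · simp only [Step.val, Pi.add_apply, Pi.smul_apply, smul_eq_mul, hd₁, hd₂]; ring
          · exact absurd hij' hij
        · rcases h2' with ⟨hij', _⟩ | ⟨_, hc₂⟩
          · exact absurd hij hij'
          · refine Or.inr (Or.inr (Or.inr ⟨hij, ?_⟩))
            simp [Step.val, hc₁, hc₂]
      · exact IH _ (Or.inr ⟨h, hh, rfl⟩)

/-- `v` restricted to the coordinates in `J` -/
def restr (J : Finset (Fin n)) (v : Fin n → ℂ) : Fin n → ℂ := fun j => if j ∈ J then v j else 0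

lemma chain_last {J : Finset (Fin n)} {g : Step n} :
    ∀ l : List (Step n), Chain J (l ++ [g]) → (∃ i ∈ J, g.u = e i) ∧ (∃ j ∈ J, g.w = e j) := by
  intro l
  induction l with
  | nil =>
    rintro ⟨hu, hw, _⟩
    refine ⟨?_, ?_⟩
    · rcases hu with h | ⟨_, hh, _⟩
      · exact h
      · simp at hh
    · rcases hw with h | ⟨_, hh, _⟩
      · exact h
      · simp at hh
  | cons g₁ l ih => rintro ⟨_, _, hl⟩; exact ih hl

/-- the rows `A k` have nonzero entries and no two columns are proportional -/
structure Nice (A : Fin n → Fin n → ℂ) : Prop where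
  ne : ∀ k j, A k j ≠ 0
  col : ∀ i j, i ≠ j → ∀ a b : ℂ, ¬ ∀ k, ∃ c : ℂ, A k i = c * a ∧ A k j = c * b

/-- some variable is read at least twice -/
lemma exists_read_twice {A : Fin n → Fin n → ℂ} (hA : Nice A) (hn : 0 < n)
    {J : Finset (Fin n)} (hJ : 2 ≤ J.card) {l : List (Step n)} (hl : Chain J l)
    (hout : ∀ k, Avail J l (restr J (A k))) : ∃ i ∈ J, 2 ≤ cnt i l := by
  classical
  by_contra hcon
  have hcon : ∀ i ∈ J, cnt i l ≤ 1 := by
    intro i hi
    by_contra h
    exact hcon ⟨i, hi, by omega⟩
  rcases List.eq_nil_or_concat l with rfl | ⟨l₀, g, rfl⟩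
  · -- no step at all
    obtain ⟨c, y, hy, hc⟩ := hout ⟨0, hn⟩
    rcases hy with ⟨i, hi, rfl⟩ | ⟨_, hh, _⟩
    · obtain ⟨j, hj, hji⟩ := Finset.exists_mem_ne (by omega : 1 < J.card) i
      have := congrFun hc j
      simp [restr, hj, e, hji] at this
      exact hA.ne _ _ this
    · simp at hh
  · rw [List.concat_eq_append] at *
    obtain ⟨⟨i, hi, hgu⟩, ⟨j, hj, hgw⟩⟩ := chain_last l₀ hl
    have hri : Reads i g := Or.inl ⟨1, by rw [hgu]; simp⟩
    have hrj : Reads j g := Or.inr ⟨1, by rw [hgw]; simp⟩
    have hc : ∀ k, Reads k g → k ∈ J → cnt k l₀ = 0 := by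
      intro k hk hkJ
      have h1 := hcon k hkJ
      unfold cnt at h1 ⊢
      rw [List.filter_append, List.length_append,
        List.filter_cons_of_pos (by simpa using hk)] at h1
      simp at h1
      simpa using h1
    have hs := values_structure hgu hgw l₀ hl (hc i hri hi) (hc j hrj hj)
    -- every row, restricted to J, has the structure
    obtain ⟨j', hj', hj'i⟩ := Finset.exists_mem_ne (by omega : 1 < J.card) i
    obtain ⟨j'', hj'', hj''j⟩ := Finset.exists_mem_ne (by omega : 1 < J.card) j
    have hrow : ∀ k, i ≠ j ∧ ∃ c : ℂ, A k i = c * g.a ∧ A k j = c * g.b := by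
      intro k
      obtain ⟨c, y, hy, hcy⟩ := hout k
      have hval : ∀ m ∈ J, A k m = c * y m := by
        intro m hm
        have := congrFun hcy m
        simpa [restr, hm] using this
      rcases hs y hy with ⟨d, rfl⟩ | ⟨d, rfl⟩ | ⟨hij, d, h1, h2⟩ | ⟨hij, h1⟩
      · have := hval j' hj'
        simp [e, hj'i] at this
        exact absurd this (hA.ne _ _)
      · have := hval j'' hj''
        simp [e, hj''j] at this
        exact absurd this (hA.ne _ _)
      · refine ⟨hij, c * d, ?_, ?_⟩
        · rw [hval i hi, h1]; ring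
        · rw [hval j hj, h2]; ring
      · have := hval i hi
        rw [h1, mul_zero] at this
        exact absurd this (hA.ne _ _)
    exact hA.col i j (hrow ⟨0, hn⟩).1 g.a g.b (fun k => (hrow k).2)

/-! ### A direct bound -/

lemma labelling {J : Finset (Fin n)} :
    ∀ l : List (Step n), Chain J l → ∃ c : Fin n → Fin n,
      J.card ≤ (J.image c).card + l.length ∧
      ∀ v, Src J l v → ∃ a, ∀ j, v j ≠ 0 → j ∈ J ∧ c j = a := by
  classical
  intro l
  induction l with
  | nil =>
    intro _
    refine ⟨id, by simp, ?_⟩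
    intro v hv
    rcases hv with ⟨i, hi, rfl⟩ | ⟨_, hh, _⟩
    · refine ⟨i, fun j hj => ?_⟩
      by_cases hji : j = i
      · subst hji; exact ⟨hi, rfl⟩
      · simp [e, hji] at hj
    · simp at hh
  | cons g l ih =>
    rintro ⟨hu, hw, hl⟩
    obtain ⟨c, hc, hs⟩ := ih hl
    obtain ⟨a, ha⟩ := hs _ hu
    obtain ⟨b, hb⟩ := hs _ hw
    refine ⟨fun x => if c x = b then a else c x, ?_, ?_⟩
    · have hsub : J.image c ⊆ insert b (J.image fun x => if c x = b then a else c x) := by
        intro y hy
        obtain ⟨x, hx, rfl⟩ := Finset.mem_image.mp hy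
        by_cases h : c x = b
        · rw [h]; exact Finset.mem_insert_self _ _
        · refine Finset.mem_insert_of_mem (Finset.mem_image.mpr ⟨x, hx, ?_⟩)
          simp [h]
      have h1 := Finset.card_le_card hsub
      have h2 := Finset.card_insert_le b (J.image fun x => if c x = b then a else c x)
      rw [List.length_cons]
      omega
    · intro v hv
      have hold : ∀ v, Src J l v → ∃ a', ∀ j, v j ≠ 0 → j ∈ J ∧
          (if c j = b then a else c j) = a' := by
        intro v hv
        obtain ⟨a₀, ha₀⟩ := hs v hv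
        refine ⟨if a₀ = b then a else a₀, fun j hj => ?_⟩
        obtain ⟨h1, h2⟩ := ha₀ j hj
        exact ⟨h1, by rw [h2]⟩
      rcases hv with hv | ⟨h, hh, rfl⟩
      · exact hold v (Or.inl hv)
      · rcases List.mem_cons.mp hh with rfl | hh
        · refine ⟨a, fun j hj => ?_⟩
          by_cases hu0 : h.u j = 0
          · have hw0 : h.w j ≠ 0 := by
              intro hw0
              apply hj
              simp [Step.val, hu0, hw0]
            obtain ⟨h1, h2⟩ := hb j hw0
            exact ⟨h1, by simp [h2]⟩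
          · obtain ⟨h1, h2⟩ := ha j hu0
            refine ⟨h1, ?_⟩
            by_cases hab : c j = b
            · simp [hab]
            · simp [h2]
        · exact hold _ (Or.inr ⟨h, hh, rfl⟩)

/-- all coordinates in `J` are nonzero -/
def Full (J : Finset (Fin n)) (g : Step n) : Prop := ∀ j ∈ J, g.val j ≠ 0

open Classical in
/-- number of full steps -/
noncomputable def nfull (J : Finset (Fin n)) (l : List (Step n)) : ℕ :=
  (l.filter (fun g => Full J g)).length

lemma full_count {J : Finset (Fin n)} :
    ∀ l : List (Step n), Chain J l → 0 < nfull J l → J.card + nfull J l ≤ l.length + 2 := by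
  classical
  intro l
  induction l with
  | nil => intro _ h; simp [nfull] at h
  | cons g l ih =>
    rintro ⟨hu, hw, hl⟩ hpos
    by_cases h0 : 0 < nfull J l
    · have h1 := ih hl h0
      have h2 : nfull J (g :: l) ≤ nfull J l + 1 := by
        unfold nfull
        by_cases hg : Full J g
        · rw [List.filter_cons_of_pos (by simpa using hg), List.length_cons]
        · rw [List.filter_cons_of_neg (by simpa using hg)]; omega
      rw [List.length_cons]; omega
    · have h0 : nfull J l = 0 := by omega
      by_cases hg : Full J g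
      · have h2 : nfull J (g :: l) = 1 := by
          unfold nfull at h0 ⊢
          rw [List.filter_cons_of_pos (by simpa using hg), List.length_cons, h0]
        obtain ⟨c, hc, hs⟩ := labelling l hl
        obtain ⟨a, ha⟩ := hs _ hu
        obtain ⟨b, hb⟩ := hs _ hw
        have hsub : J.image c ⊆ {a, b} := by
          intro y hy
          obtain ⟨j, hj, rfl⟩ := Finset.mem_image.mp hy
          by_cases hu0 : g.u j = 0
          · have hw0 : g.w j ≠ 0 := by
              intro hw0
              apply hg j hj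
              simp [Step.val, hu0, hw0]
            simp [(hb j hw0).2]
          · simp [(ha j hu0).2]
        have h3 := Finset.card_le_card hsub
        have h4 : ({a, b} : Finset (Fin n)).card ≤ 2 := Finset.card_le_two
        rw [h2, List.length_cons]
        omega
      · exfalso
        unfold nfull at h0 hpos
        rw [List.filter_cons_of_neg (by simpa using hg), h0] at hpos
        omega

/-- the rows restricted to `J` are pairwise non-proportional -/
def Good (A : Fin n → Fin n → ℂ) (J : Finset (Fin n)) : Prop :=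
  ∀ k k', k ≠ k' → ¬ ∃ c : ℂ, ∀ j ∈ J, A k j = c * A k' j

lemma good_card {A : Fin n → Fin n → ℂ} (hA : Nice A) (hn : 2 ≤ n) {J : Finset (Fin n)}
    (hJ : Good A J) : 2 ≤ J.card := by
  by_contra hcon
  have h1 : J.card ≤ 1 := by omega
  have hne : (⟨0, by omega⟩ : Fin n) ≠ ⟨1, by omega⟩ := by
    intro h
    have := congrArg Fin.val h
    simp at this
  apply hJ _ _ hne
  rcases J.eq_empty_or_nonempty with rfl | ⟨j, hj⟩
  · exact ⟨0, fun i hi => by simp at hi⟩
  · refine ⟨A ⟨0, by omega⟩ j / A ⟨1, by omega⟩ j, fun i hi => ?_⟩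
    have : i = j := Finset.card_le_one.mp h1 i hi j hj
    subst this
    have := hA.ne ⟨1, by omega⟩ i
    field_simp

lemma direct_bound {A : Fin n → Fin n → ℂ} (hA : Nice A) (hn : 2 ≤ n) {J : Finset (Fin n)}
    (hJ : Good A J) {l : List (Step n)} (hl : Chain J l)
    (hout : ∀ k, Avail J l (restr J (A k))) : n + J.card ≤ l.length + 2 := by
  classical
  have hJ2 := good_card hA hn hJ
  have hex : ∀ k, ∃ h ∈ l, Full J h ∧ ∃ c : ℂ, c ≠ 0 ∧ ∀ j ∈ J, A k j = c * h.val j := by
    intro k
    obtain ⟨c, y, hy, hcy⟩ := hout k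
    have hval : ∀ m ∈ J, A k m = c * y m := by
      intro m hm
      have := congrFun hcy m
      simpa [restr, hm] using this
    rcases hy with ⟨i, hi, rfl⟩ | ⟨h, hh, rfl⟩
    · obtain ⟨j, hj, hji⟩ := Finset.exists_mem_ne (by omega : 1 < J.card) i
      have := hval j hj
      simp [e, hji] at this
      exact absurd this (hA.ne _ _)
    · have hJne : J.Nonempty := Finset.card_pos.mp (by omega)
      refine ⟨h, hh, ?_, c, ?_, hval⟩
      · intro j hj h0
        have := hval j hj
        rw [h0, mul_zero] at this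
        exact hA.ne _ _ this
      · rintro rfl
        obtain ⟨j, hj⟩ := hJne
        have := hval j hj
        rw [zero_mul] at this
        exact hA.ne _ _ this
  choose h hhl hfull c hc0 hc using hex
  have hinj : Function.Injective h := by
    intro k k' hkk
    by_contra hne
    apply hJ k k' hne
    refine ⟨c k / c k', fun j hj => ?_⟩
    rw [hc k j hj, hc k' j hj, hkk]
    have := hc0 k'
    field_simp
  have hcard : n ≤ nfull J l := by
    have h1 : (univ.image h).card = n := by
      rw [Finset.card_image_of_injective _ hinj, Finset.card_univ, Fintype.card_fin]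
    have h2 : univ.image h ⊆ (l.filter (fun g => Full J g)).toFinset := by
      intro g hg
      obtain ⟨k, _, rfl⟩ := Finset.mem_image.mp hg
      rw [List.mem_toFinset, List.mem_filter]
      exact ⟨hhl k, by simpa using hfull k⟩
    have h3 := Finset.card_le_card h2
    have h4 := List.toFinset_card_le (l.filter (fun g => Full J g))
    unfold nfull
    omega
  have := full_count l hl (by omega)
  omega

lemma proj_restr {J : Finset (Fin n)} (i : Fin n) (v : Fin n → ℂ) :
    proj i (restr J v) = restr (J.erase i) v := by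
  ext j
  by_cases h : j = i
  · subst h; simp [proj, restr]
  · simp [proj, restr, h]

lemma main_bound {A : Fin n → Fin n → ℂ} (hA : Nice A) (hn : 2 ≤ n) {K : ℕ}
    (hK : ∀ J, ¬ Good A J → J.card + 1 ≤ K) :
    ∀ (m : ℕ) (J : Finset (Fin n)), J.card = m → Good A J → ∀ l : List (Step n), Chain J l →
      (∀ k, Avail J l (restr J (A k))) → n + 2 * J.card ≤ l.length + 2 + min J.card K := by
  intro m
  induction m with
  | zero =>
    intro J hJ hg
    have := good_card hA hn hg
    omega
  | succ m ih =>
    intro J hJ hg l hl hout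
    have hJ2 := good_card hA hn hg
    obtain ⟨i, hi, hcnt⟩ := exists_read_twice hA (by omega) hJ2 hl hout
    have hcard : (J.erase i).card = m := by
      rw [Finset.card_erase_of_mem hi, hJ]; rfl
    have hne : (J.erase i).Nonempty := Finset.card_pos.mp (by omega)
    obtain ⟨l', hl', hav, hlen⟩ := eliminate hne l hl
    have hout' : ∀ k, Avail (J.erase i) l' (restr (J.erase i) (A k)) := by
      intro k
      obtain ⟨c, y, hy, hcy⟩ := hout k
      rw [← proj_restr, hcy, proj_smul]
      exact (hav y hy).smul c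
    by_cases hg' : Good A (J.erase i)
    · have := ih (J.erase i) hcard hg' l' hl' hout'
      rw [hcard] at this
      rw [hJ]
      omega
    · have h1 := hK _ hg'
      have h2 := direct_bound hA hn hg hl hout
      rw [hJ] at h2 ⊢
      rw [hcard] at h1
      omega

/-! ### The Fourier matrix -/

lemma zeta_prim (hn : 2 ≤ n) : IsPrimitiveRoot (zeta n) n := by
  unfold zeta
  exact Complex.isPrimitiveRoot_exp n (by omega)

lemma nice_dft (hn : 2 ≤ n) : Nice (fun k j : Fin n => zeta n ^ ((k : ℕ) * (j : ℕ))) := by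
  have hz := zeta_prim hn
  have hz0 : zeta n ≠ 0 := hz.ne_zero (by omega)
  refine ⟨fun k j => pow_ne_zero _ hz0, ?_⟩
  intro i j hij a b h
  obtain ⟨c₀, h1, h2⟩ := h ⟨0, by omega⟩
  obtain ⟨c₁, h3, h4⟩ := h ⟨1, by omega⟩
  simp only [zero_mul, pow_zero, one_mul] at h1 h2 h3 h4
  have hc0 : c₀ ≠ 0 := by
    rintro rfl
    simp at h1
  have hab : a = b := mul_left_cancel₀ hc0 (h1.symm.trans h2)
  apply hij
  ext
  apply hz.pow_inj i.2 j.2
  rw [h3, h4, hab]

lemma card_of_pow_const (hn : 2 ≤ n) (J : Finset (Fin n)) (om c : ℂ) (hom1 : om ≠ 1)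
    (homn : om ^ n = 1) (homc : ∀ j ∈ J, om ^ (j : ℕ) = c) : J.card ≤ n / n.minFac := by
  obtain ⟨q, hq⟩ : ∃ q, q = orderOf om := ⟨_, rfl⟩
  have hqn : q ∣ n := hq ▸ orderOf_dvd_of_pow_eq_one homn
  have hq1 : q ≠ 1 := by
    intro h
    rw [hq] at h
    exact hom1 (orderOf_eq_one_iff.mp h)
  have hq0 : 0 < q := Nat.pos_of_dvd_of_pos hqn (by omega)
  have hpq : n.minFac ≤ q := Nat.minFac_le_of_dvd (by omega) hqn
  have hcard : J.card ≤ n / q := by
    have : J.card ≤ (range (n / q)).card := by
      refine Finset.card_le_card_of_injOn (fun j : Fin n => (j : ℕ) / q) ?_ ?_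
      · intro j _
        simp only [Finset.coe_range, Set.mem_Iio]
        exact Nat.div_lt_div_of_lt_of_dvd hqn j.2
      · intro j hj j' hj' hjj
        have hjj' : (j : ℕ) / q = (j' : ℕ) / q := hjj
        have h1 : om ^ (j : ℕ) = om ^ (j' : ℕ) := by
          rw [homc j hj, homc j' hj']
        have h2 : (j : ℕ) % q = (j' : ℕ) % q := by
          have hpr := IsPrimitiveRoot.orderOf om
          rw [← hq] at hpr
          apply hpr.pow_inj (Nat.mod_lt _ hq0) (Nat.mod_lt _ hq0)
          rw [hq, pow_mod_orderOf, pow_mod_orderOf, h1]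
        have h3 := Nat.div_add_mod (j : ℕ) q
        have h4 := Nat.div_add_mod (j' : ℕ) q
        rw [hjj', h2] at h3
        exact Fin.ext (h3.symm.trans h4)
    simpa using this
  exact le_trans hcard (Nat.div_le_div_left hpq (Nat.minFac_pos n))

lemma not_good_card (hn : 2 ≤ n) (J : Finset (Fin n))
    (hJ : ¬ Good (fun k j : Fin n => zeta n ^ ((k : ℕ) * (j : ℕ))) J) :
    J.card + 1 ≤ n / n.minFac + 1 := by
  have hz := zeta_prim hn
  have hz0 : zeta n ≠ 0 := hz.ne_zero (by omega)
  have hJ' : ∃ k k' : Fin n, k ≠ k' ∧ ∃ c : ℂ, ∀ j ∈ J,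
      zeta n ^ ((k : ℕ) * (j : ℕ)) = c * zeta n ^ ((k' : ℕ) * (j : ℕ)) := by
    by_contra hcon
    apply hJ
    intro k k' hkk h
    exact hcon ⟨k, k', hkk, h⟩
  obtain ⟨k, k', hkk, c, hc⟩ := hJ'
  have hk'0 : zeta n ^ (k' : ℕ) ≠ 0 := pow_ne_zero _ hz0
  have hom1 : zeta n ^ (k : ℕ) * (zeta n ^ (k' : ℕ))⁻¹ ≠ 1 := by
    intro h
    apply hkk
    ext
    apply hz.pow_inj k.2 k'.2
    exact (mul_inv_eq_one₀ hk'0).mp h
  have homn : (zeta n ^ (k : ℕ) * (zeta n ^ (k' : ℕ))⁻¹) ^ n = 1 := by
    rw [mul_pow, inv_pow, ← pow_mul, ← pow_mul, mul_comm (k : ℕ), mul_comm (k' : ℕ),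
      pow_mul, pow_mul, hz.pow_eq_one]
    simp
  have homc : ∀ j ∈ J, (zeta n ^ (k : ℕ) * (zeta n ^ (k' : ℕ))⁻¹) ^ (j : ℕ) = c := by
    intro j hj
    have h := hc j hj
    have h0 : zeta n ^ ((k' : ℕ) * (j : ℕ)) ≠ 0 := pow_ne_zero _ hz0
    rw [mul_pow, inv_pow, ← pow_mul, ← pow_mul, h, mul_assoc, mul_inv_cancel₀ h0, mul_one]
  have := card_of_pow_const hn J _ c hom1 homn homc
  omega

lemma good_univ (hn : 2 ≤ n) :
    Good (fun k j : Fin n => zeta n ^ ((k : ℕ) * (j : ℕ))) univ := by
  have hz := zeta_prim hn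
  intro k k' hkk h
  obtain ⟨c, hc⟩ := h
  have h0 := hc ⟨0, by omega⟩ (mem_univ _)
  have h1 := hc ⟨1, by omega⟩ (mem_univ _)
  simp only [mul_zero, pow_zero, mul_one] at h0 h1
  apply hkk
  ext
  apply hz.pow_inj k.2 k'.2
  rw [h1, ← h0, one_mul]

/-! ### From circuits to chains -/

lemma value_map {M N : Type} [AddCommGroup M] [Module ℂ M] [AddCommGroup N] [Module ℂ N]
    (f : M →ₗ[ℂ] N) (vals : List M) (g : Gate) :
    g.value (vals.map f) = f (g.value vals) := by
  have h : ∀ i, (vals.map f).getD i 0 = f (vals.getD i 0) := by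
    intro i
    have := List.getD_map (f := f) (l := vals) (n := i) (d := (0 : M))
    rw [map_zero] at this
    exact this
  cases g <;> simp [Gate.value, h, -List.getD_eq_getElem?_getD]

lemma run_map {M N : Type} [AddCommGroup M] [Module ℂ M] [AddCommGroup N] [Module ℂ N]
    (f : M →ₗ[ℂ] N) (C : List Gate) : ∀ vals : List M,
    run (vals.map f) C = (run vals C).map f := by
  induction C with
  | nil => intro vals; rfl
  | cons g C ih =>
    intro vals
    show run (vals.map f ++ [g.value (vals.map f)]) C = (run (vals ++ [g.value vals]) C).map f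
    rw [value_map, ← ih]
    simp

lemma getD_append_single {M : Type} (vals : List M) (v d : M) (i : ℕ) :
    (vals ++ [v]).getD i d = vals.getD i d ∨ (vals ++ [v]).getD i d = v := by
  rcases lt_trichotomy i vals.length with h | h | h
  · left; rw [List.getD_append _ _ _ _ h]
  · right; rw [List.getD_append_right _ _ _ _ (by omega)]; simp [h]
  · left
    rw [List.getD_append_right _ _ _ _ (by omega), List.getD_eq_default _ _ (by simp; omega),
      List.getD_eq_default _ _ (by omega)]

lemma chain_of_run (C : List Gate) :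
    ∀ (vals : List (Fin n → ℂ)) (l : List (Step n)), Chain univ l →
      (∀ i, Avail univ l (vals.getD i 0)) →
      ∃ l' : List (Step n), Chain univ l' ∧ l'.length = l.length + C.length ∧
        ∀ i, Avail univ l' ((run vals C).getD i 0) := by
  induction C with
  | nil => intro vals l hl hv; exact ⟨l, hl, by simp, hv⟩
  | cons g C ih =>
    intro vals l hl hv
    have hstep : ∃ s : Step n, Src univ l s.u ∧ Src univ l s.w ∧ g.value vals = s.val := by
      cases g with
      | add i j =>
        obtain ⟨c, y, hy, e1⟩ := hv i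
        obtain ⟨c', y', hy', e2⟩ := hv j
        exact ⟨⟨c, c', y, y'⟩, hy, hy', by simp only [Gate.value, Step.val, e1, e2]⟩
      | sub i j =>
        obtain ⟨c, y, hy, e1⟩ := hv i
        obtain ⟨c', y', hy', e2⟩ := hv j
        refine ⟨⟨c, -c', y, y'⟩, hy, hy', ?_⟩
        simp only [Gate.value, Step.val, e1, e2, neg_smul, sub_eq_add_neg]
      | scale c₀ i =>
        obtain ⟨c, y, hy, e1⟩ := hv i
        refine ⟨⟨c₀ * c, 0, y, y⟩, hy, hy, ?_⟩
        simp only [Gate.value, Step.val, e1, smul_smul, zero_smul, add_zero]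
    obtain ⟨s, hu, hw, hs⟩ := hstep
    have hv' : ∀ i, Avail univ (s :: l) ((vals ++ [g.value vals]).getD i 0) := by
      intro i
      rcases getD_append_single vals (g.value vals) 0 i with h | h
      · rw [h]; exact (hv i).cons s
      · rw [h, hs]
        exact ⟨1, s.val, Or.inr ⟨s, List.mem_cons_self, rfl⟩, by simp⟩
    obtain ⟨l', h1, h2, h3⟩ := ih (vals ++ [g.value vals]) (s :: l) ⟨hu, hw, hl⟩ hv'
    refine ⟨l', h1, ?_, h3⟩
    rw [h2, List.length_cons, List.length_cons]
    omega

/-- dot product with `x` -/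
def dot (x : Fin n → ℂ) : (Fin n → ℂ) →ₗ[ℂ] ℂ :=
  { toFun := fun v => ∑ j, v j * x j
    map_add' := by intro v w; simp [add_mul, Finset.sum_add_distrib]
    map_smul' := by intro c v; simp [mul_assoc, Finset.mul_sum] }

lemma circuit_bound (hn : 2 ≤ n) (C : List Gate) (hC : Computes n C) :
    3 * n ≤ C.length + n / n.minFac + 3 := by
  obtain ⟨out, hout⟩ := hC
  set vals : List (Fin n → ℂ) := List.ofFn (fun i : Fin n => e i) ++ [0] with hvals
  have h0 : ∀ i, Avail univ ([] : List (Step n)) (vals.getD i 0) := by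
    intro i
    have hne : (univ : Finset (Fin n)).Nonempty := ⟨⟨0, by omega⟩, mem_univ _⟩
    rcases getD_append_single (List.ofFn (fun i : Fin n => e i)) 0 0 i with h | h
    · rw [hvals, h]
      by_cases hi : i < n
      · have : (List.ofFn (fun i : Fin n => e i)).getD i 0 = e ⟨i, hi⟩ := by
          rw [List.getD_eq_getElem _ _ (by simpa using hi)]
          simp
        rw [this]
        exact ⟨1, e ⟨i, hi⟩, Or.inl ⟨_, mem_univ _, rfl⟩, by simp⟩
      · rw [List.getD_eq_default _ _ (by simpa using hi)]
        exact avail_zero hne _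
    · rw [hvals, h]; exact avail_zero hne _
  obtain ⟨l, hl, hlen, hav⟩ := chain_of_run C vals [] trivial h0
  have hrow : ∀ k : Fin n, (run vals C).getD (out k) 0
      = fun j : Fin n => zeta n ^ ((k : ℕ) * (j : ℕ)) := by
    intro k
    ext j
    have h1 := hout (e j) k
    have h2 : List.ofFn (e j) ++ [0] = vals.map (dot (e j)) := by
      rw [hvals, List.map_append, List.map_ofFn]
      congr 1
      · congr 1
        ext i
        by_cases hij : i = j
        · subst hij; simp [dot, e, Pi.single_apply]
        · simp [dot, e, Pi.single_apply, hij, Ne.symm hij]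
      · simp
    rw [h2, run_map] at h1
    have h3 := List.getD_map (f := dot (e j)) (l := run vals C) (n := out k) (d := 0)
    rw [map_zero] at h3
    rw [h3] at h1
    simpa [dot, e, Pi.single_apply] using h1
  have hmain := main_bound (nice_dft hn) hn (not_good_card hn) n univ (by simp)
    (good_univ hn) l hl (by
      intro k
      have := hav (out k)
      rw [hrow k] at this
      have hre : restr univ (fun j : Fin n => zeta n ^ ((k : ℕ) * (j : ℕ)))
          = fun j : Fin n => zeta n ^ ((k : ℕ) * (j : ℕ)) := by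
        ext j; simp [restr]
      rw [hre]
      exact this)
  simp only [Finset.card_univ, Fintype.card_fin] at hmain
  have hlen' : l.length = C.length := by simpa using hlen
  omega

/-- **Theorem.** For every `n ≥ 2`, `L(n) ≥ 3 n - n / p - 3` with `p` the least prime factor of
`n`. In particular `L(n) ≥ (5/2) n - 3` for every `n ≥ 2`, and `L(n) ≥ 3 n - 4` for `n` prime. -/
theorem result :
    (∀ n : ℕ, 2 ≤ n → ((3 * n : ℕ) : ℕ∞) ≤ L n + ((n / n.minFac + 3 : ℕ) : ℕ∞)) ∧
    (∀ n : ℕ, 2 ≤ n → ((5 * n : ℕ) : ℕ∞) ≤ 2 * L n + 6) ∧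
    (∀ n : ℕ, n.Prime → ((3 * n : ℕ) : ℕ∞) ≤ L n + 4) := by
  have h1 : ∀ n : ℕ, 2 ≤ n → ∀ C : List Gate, Computes n C →
      3 * n ≤ C.length + n / n.minFac + 3 := fun n hn C hC => circuit_bound hn C hC
  have key : ∀ (n N a : ℕ), (∀ C : List Gate, Computes n C → N ≤ C.length + a) →
      (N : ℕ∞) ≤ L n + (a : ℕ∞) := by
    intro n N a h
    have h2 : ((N - a : ℕ) : ℕ∞) ≤ L n := by
      refine le_iInf fun C => le_iInf fun hC => ?_
      have := h C hC
      exact_mod_cast (by omega : N - a ≤ C.length)
    calc (N : ℕ∞) ≤ ((N - a + a : ℕ) : ℕ∞) := by exact_mod_cast (by omega : N ≤ N - a + a)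
      _ = ((N - a : ℕ) : ℕ∞) + (a : ℕ∞) := by push_cast; rfl
      _ ≤ L n + a := by gcongr
  refine ⟨?_, ?_, ?_⟩
  · intro n hn
    exact key n (3 * n) (n / n.minFac + 3) (fun C hC => by have := h1 n hn C hC; omega)
  · intro n hn
    have h2 : (((5 * n - 5) / 2 : ℕ) : ℕ∞) ≤ L n + ((0 : ℕ) : ℕ∞) := by
      refine key n ((5 * n - 5) / 2) 0 (fun C hC => ?_)
      have h3 := h1 n hn C hC
      have h4 : n / n.minFac ≤ n / 2 :=
        Nat.div_le_div_left (Nat.minFac_prime (by omega)).two_le (by norm_num)
      omega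
    have h5 : ((5 * n : ℕ) : ℕ∞) ≤ ((2 * ((5 * n - 5) / 2) + 6 : ℕ) : ℕ∞) := by
      exact_mod_cast (by omega : 5 * n ≤ 2 * ((5 * n - 5) / 2) + 6)
    refine le_trans h5 ?_
    push_cast at h2 ⊢
    rw [add_zero] at h2
    gcongr
  · intro n hn
    refine key n (3 * n) 4 (fun C hC => ?_)
    have := h1 n hn.two_le C hC
    rw [hn.minFac_eq, Nat.div_self hn.pos] at this
    omega

end Vale.Agent.Results.P344.LinearLower
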